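import Mathlib.Analysis.CStarAlgebra.Matrix
import Mathlib.Analysis.Matrix.Spectrum
import Mathlib.Analysis.SpecialFunctions.Log.NegMulLog
import Mathlib.LinearAlgebra.Matrix.PosDef
import Mathlib.LinearAlgebra.Matrix.Kronecker
import Mathlib.Data.Nat.Dist

/-!
# Entanglement of gapped ground states: the square lattice and slabs of `ℤ³`
-/

namespace Vale.Agent.P356.Slab

open Matrix
open scoped Kronecker ComplexOrder Matrix.Norms.L2Operator

/-- The `ℓ¹` distance of two sites of the square `{1,…,L}²`. -/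
def dist2 {L : ℕ} (x y : Fin L × Fin L) : ℕ := Nat.dist x.1 y.1 + Nat.dist x.2 y.2

/-- The `ℓ¹` distance of two sites of the slab `{1,…,L}² × {1,…,h}` of `ℤ³` (`h` layers). -/
def dist3 {L h : ℕ} (x y : (Fin L × Fin L) × Fin h) : ℕ := dist2 x.1 y.1 + Nat.dist x.2 y.2

variable {V : Type} [Fintype V] [DecidableEq V] {q : ℕ}

/-- Splitting a configuration on `V` into its parts inside and outside of `X`. -/
abbrev split (X : Finset V) (q : ℕ) :
    (V → Fin q) ≃ ({x // x ∈ X} → Fin q) × ({x // x ∉ X} → Fin q) :=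
  Equiv.piEquivPiSubtypeProd (· ∈ X) fun _ => Fin q

/-- `h = k ⊗ 1`: the operator `h` on `⊗_{x ∈ V} ℂ^q` (a matrix in the product basis) acts on the
tensor factors in `X`, and as the identity elsewhere. -/
def IsLocal (X : Finset V) (h : Matrix (V → Fin q) (V → Fin q) ℂ) : Prop :=
  ∃ k : Matrix ({x // x ∈ X} → Fin q) ({x // x ∈ X} → Fin q) ℂ,
    h = (k ⊗ₖ (1 : Matrix ({x // x ∉ X} → Fin q) ({x // x ∉ X} → Fin q) ℂ)).submatrix
      (split X q) (split X q)

/-- Admissible Hamiltonians of range `R` and strength `J` for the distance `d`: `H = ∑ h_X`, every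
`h_X` is Hermitian, acts on `X`, has operator norm at most `J`, and vanishes unless `X` is nonempty
of diameter at most `R`. -/
def IsAdmissible (d : V → V → ℕ) (R : ℕ) (J : ℝ) (H : Matrix (V → Fin q) (V → Fin q) ℂ) : Prop :=
  ∃ h : Finset V → Matrix (V → Fin q) (V → Fin q) ℂ,
    (∀ X, (h X).IsHermitian ∧ IsLocal X (h X) ∧ ‖h X‖ ≤ J) ∧
    (∀ X, h X ≠ 0 → X.Nonempty ∧ ∀ x ∈ X, ∀ y ∈ X, d x y ≤ R) ∧ H = ∑ X, h X

/-- `Ω` is a unit vector, `H Ω = E Ω`, and `H - E ≥ Δ (1 - |Ω⟩⟨Ω|)`. -/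
structure IsGapped {ι : Type} [Fintype ι] [DecidableEq ι] (H : Matrix ι ι ℂ) (Δ E : ℝ)
    (Ω : ι → ℂ) : Prop where
  unit : star Ω ⬝ᵥ Ω = 1
  eigen : H *ᵥ Ω = (E : ℂ) • Ω
  gap : (H - (E : ℂ) • 1 - (Δ : ℂ) • (1 - vecMulVec Ω (star Ω))).PosSemidef

/-- The amplitudes of `Ω` as a matrix `M`: rows are configurations in `A`, columns configurations
outside of `A`. The reduced density matrix of `A` is `M * Mᴴ`. -/
def amplitudes (A : Finset V) (Ω : (V → Fin q) → ℂ) :
    Matrix ({x // x ∈ A} → Fin q) ({x // x ∉ A} → Fin q) ℂ :=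
  Matrix.of fun a b => Ω ((split A q).symm (a, b))

/-- The entanglement entropy of `A`: the von Neumann entropy (natural logarithm) of the reduced
density matrix `M * Mᴴ`. -/
noncomputable def entropy (A : Finset V) (Ω : (V → Fin q) → ℂ) : ℝ :=
  ∑ i, Real.negMulLog ((isHermitian_mul_conjTranspose_self (amplitudes A Ω)).eigenvalues i)

/-- The number of edges `{x, y}`, `d x y = 1`, with `x ∈ A` and `y ∉ A`. -/
def cutSize (d : V → V → ℕ) (A : Finset V) : ℕ :=
  ((A ×ˢ Aᶜ).filter fun p => d p.1 p.2 = 1).card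

end Vale.Agent.P356.Slab
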