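import Vale.Agent.P356.PH.Mat749
import Vale.Agent.P356.SV.Ent
import Vale.Agent.P356.H382.Defs

/-!
# The fresh definitions and the definitions of `Vale/Agent/P356/Defs.lean`
-/

set_option linter.all false

namespace Vale.Agent.P356.Slab

open Matrix Finset Vale.Agent.P356 Vale.Agent.P356.SV Vale.Agent.P356.PH
open scoped Kronecker ComplexOrder Matrix.Norms.L2Operator

section bridge
variable {V : Type} [Fintype V] [DecidableEq V] {q : ℕ}

theorem IsLocal.acts {X : Finset V} {h : Op V q} (hX : IsLocal X h) : ActsOn X h := by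
  obtain ⟨k, rfl⟩ := hX
  refine ⟨k, fun s t => ⟨fun hst => ?_, fun hst => ?_⟩⟩
  · rw [submatrix_apply, kroneckerMap_apply]
    have e : (split X q s).2 = (split X q t).2 := by
      funext x
      exact hst x.1 x.2
    rw [e, one_apply_eq, mul_one]
    rfl
  · obtain ⟨x, hx, hne⟩ := hst
    rw [submatrix_apply, kroneckerMap_apply, one_apply_ne, mul_zero]
    intro e
    exact hne (congrFun e ⟨x, hx⟩)

theorem entropy_eq (A : Finset V) (Ω : Conf V q → ℂ) : entropy A Ω = entropyOf A Ω := by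
  have h : rdm A Ω = amplitudes A Ω * (amplitudes A Ω)ᴴ := b7_rdm_eq A Ω
  unfold entropyOf
  rw [h]
  unfold vnEntropy entropy
  rw [dif_pos (isHermitian_mul_conjTranspose_self _)]

theorem star_dot_self {ι : Type} [Fintype ι] (ψ : ι → ℂ) :
    star ψ ⬝ᵥ ψ = ((nsq ψ : ℝ) : ℂ) := by
  rw [dotProduct, nsq]
  push_cast
  refine Finset.sum_congr rfl fun s _ => ?_
  rw [Pi.star_apply, RCLike.star_def, Complex.conj_mul']

theorem IsGapped.gapped {ι : Type} [Fintype ι] [DecidableEq ι] {H : Matrix ι ι ℂ} {Δ E : ℝ}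
    {Ω : ι → ℂ} (h : IsGapped H Δ E Ω) : GappedGround H Δ E Ω := by
  refine ⟨?_, h.eigen, fun ψ => ?_⟩
  · have := h.unit
    rw [star_dot_self] at this
    exact_mod_cast this
  · have h1 := h.gap.dotProduct_mulVec_nonneg ψ
    rw [sub_mulVec, sub_mulVec, smul_mulVec, smul_mulVec, sub_mulVec, one_mulVec,
      dotProduct_sub, dotProduct_sub, dotProduct_smul, dotProduct_smul, dotProduct_sub,
      star_dot_self] at h1
    have h2 : star ψ ⬝ᵥ (vecMulVec Ω (star Ω) *ᵥ ψ) = ((‖star Ω ⬝ᵥ ψ‖ ^ 2 : ℝ) : ℂ) := by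
      have e1 : vecMulVec Ω (star Ω) *ᵥ ψ = (star Ω ⬝ᵥ ψ) • Ω := by
        funext i
        simp only [mulVec, dotProduct, vecMulVec_apply, Pi.smul_apply, smul_eq_mul,
          Finset.sum_mul]
        exact Finset.sum_congr rfl fun j _ => by ring
      have e2 : star ψ ⬝ᵥ Ω = star (star Ω ⬝ᵥ ψ) := by
        rw [star_dotProduct]
      rw [e1, dotProduct_smul, e2, smul_eq_mul, RCLike.star_def, Complex.mul_conj']
      push_cast
      rfl
    rw [h2] at h1
    have h3 := (Complex.le_def.1 h1).1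
    simp only [smul_eq_mul, Complex.sub_re, Complex.mul_re, Complex.ofReal_re,
      Complex.ofReal_im, Complex.zero_re, zero_mul, sub_zero, mul_zero, Complex.sub_im] at h3
    linarith

end bridge

/-! ### The square -/

section square
variable {L q : ℕ}

theorem dist2_eq (x y : Site L) : dist2 x y = dist1 x y := by
  unfold dist2 dist1 Nat.dist
  omega

theorem cutSize_eq (A : Finset (Site L)) : cutSize dist2 A = bdry A := by
  unfold cutSize bdry
  congr 1
  ext p
  simp only [mem_filter, mem_product, mem_compl, mem_univ, true_and, dist2_eq, and_assoc]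

theorem IsAdmissible.adm {R : ℕ} {J : ℝ} (hJ : 0 ≤ J) {H : Op (Site L) q}
    (h : IsAdmissible dist2 R J H) : Admissible L q R J H := by
  obtain ⟨k, hk, hk2, hH⟩ := h
  refine ⟨k, fun X => ⟨(hk X).1, (hk X).2.1.acts, ph_opNormLe (hk X).2.2, fun hX => ?_⟩, hH⟩
  obtain ⟨h1, h2⟩ := hk2 X hX
  refine ⟨h1, fun x hx y hy => ?_⟩
  rw [← dist2_eq]
  exact h2 x hx y hy

end square

end Vale.Agent.P356.Slab
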