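import Vale.Agent.P356.H382.Bridge

/-!
# Grouping the columns of a slab
-/

set_option linter.all false

namespace Vale.Agent.P356.Slab

open Matrix Finset Vale.Agent.P356 Vale.Agent.P356.SV Vale.Agent.P356.PH Vale.Agent.P356.Path
open scoped Kronecker ComplexOrder Matrix.Norms.L2Operator

/-! ### Reindexing -/

section reindex
variable {ι κ : Type} [Fintype ι] [DecidableEq ι] [Fintype κ] [DecidableEq κ] (e : ι ≃ κ)

theorem nsq_comp (ψ : κ → ℂ) : nsq (ψ ∘ e) = nsq ψ := by
  unfold nsq
  exact e.sum_comp (fun s => ‖ψ s‖ ^ 2)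

theorem nsq_comp_symm (ψ : ι → ℂ) : nsq (ψ ∘ e.symm) = nsq ψ := nsq_comp e.symm ψ

theorem dot_comp (φ ψ : κ → ℂ) : (φ ∘ e) ⬝ᵥ (ψ ∘ e) = φ ⬝ᵥ ψ := by
  unfold dotProduct
  exact e.sum_comp (fun s => φ s * ψ s)

theorem sub_mulVec' (H : Matrix ι ι ℂ) (ψ : κ → ℂ) :
    H.submatrix e.symm e.symm *ᵥ ψ = (H *ᵥ (ψ ∘ e)) ∘ e.symm := by
  rw [submatrix_mulVec_equiv, Equiv.symm_symm]

theorem onl_sub' {H : Matrix ι ι ℂ} {J : ℝ} (h : OpNormLe H J) :
    OpNormLe (H.submatrix e.symm e.symm) J := by
  intro ψ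
  rw [sub_mulVec', nsq_comp_symm, ← nsq_comp e ψ]
  exact h _

theorem gapped_sub {H : Matrix ι ι ℂ} {Δ E : ℝ} {Ω : ι → ℂ} (h : GappedGround H Δ E Ω) :
    GappedGround (H.submatrix e.symm e.symm) Δ E (Ω ∘ e.symm) := by
  obtain ⟨h1, h2, h3⟩ := h
  have hΩ : (Ω ∘ e.symm) ∘ e = Ω := by
    funext i
    simp
  refine ⟨by rw [nsq_comp_symm, h1], ?_, fun ψ => ?_⟩
  · rw [sub_mulVec', hΩ, h2]
    rfl
  · have h4 := h3 (ψ ∘ e)
    rw [nsq_comp] at h4
    have e1 : star Ω ⬝ᵥ (ψ ∘ e) = star (Ω ∘ e.symm) ⬝ᵥ ψ := by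
      rw [← dot_comp e (star (Ω ∘ e.symm)) ψ]
      congr 1
      funext i
      simp
    have e2 : star (ψ ∘ e) ⬝ᵥ (H *ᵥ (ψ ∘ e)) = star ψ ⬝ᵥ (H.submatrix e.symm e.symm *ᵥ ψ) := by
      rw [sub_mulVec', ← dot_comp e (star ψ)]
      congr 1
      funext i
      simp
    rwa [e1, e2] at h4

end reindex

/-! ### Columns -/

section columns
variable {L h q : ℕ}

/-- the configurations of the slab as configurations of columns -/
def grp (L h q : ℕ) : (((Fin L × Fin L) × Fin h) → Fin q) ≃ (Site L → Fin (q ^ h)) where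
  toFun s := fun c => finFunctionFinEquiv fun z => s (c, z)
  invFun t := fun x => finFunctionFinEquiv.symm (t x.1) x.2
  left_inv s := by
    funext x
    simp
  right_inv t := by
    funext c
    simp

/-- the sites in the columns of `B` -/
abbrev cols (h : ℕ) (B : Finset (Site L)) : Finset ((Fin L × Fin L) × Fin h) :=
  B ×ˢ (univ : Finset (Fin h))

theorem mem_cols {B : Finset (Site L)} {x : (Fin L × Fin L) × Fin h} :
    x ∈ cols h B ↔ x.1 ∈ B := by
  simp

/-- grouping inside `B` -/
def gin (h q : ℕ) (B : Finset (Site L)) :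
    ({x // x ∈ cols h B} → Fin q) ≃ ({c // c ∈ B} → Fin (q ^ h)) where
  toFun a := fun c => finFunctionFinEquiv fun z => a ⟨(c.1, z), mem_cols.2 c.2⟩
  invFun t := fun x => finFunctionFinEquiv.symm (t ⟨x.1.1, mem_cols.1 x.2⟩) x.1.2
  left_inv s := by
    funext x
    simp
  right_inv t := by
    funext c
    simp

/-- grouping outside `B` -/
def gout (h q : ℕ) (B : Finset (Site L)) :
    ({x // x ∉ cols h B} → Fin q) ≃ ({c // c ∉ B} → Fin (q ^ h)) where
  toFun a := fun c => finFunctionFinEquiv fun z => a ⟨(c.1, z), fun hx => c.2 (mem_cols.1 hx)⟩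
  invFun t := fun x =>
    finFunctionFinEquiv.symm (t ⟨x.1.1, fun hx => x.2 (mem_cols.2 hx)⟩) x.1.2
  left_inv s := by
    funext x
    simp
  right_inv t := by
    funext c
    simp

theorem glue (B : Finset (Site L)) (a : {c // c ∈ B} → Fin (q ^ h))
    (b : {c // c ∉ B} → Fin (q ^ h)) :
    (grp L h q).symm ((cut B (q ^ h)).symm (a, b)) =
      (cut (cols h B) q).symm ((gin h q B).symm a, (gout h q B).symm b) := by
  funext x
  by_cases hx : x.1 ∈ B
  · have hx' : x ∈ cols h B := mem_cols.2 hx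
    simp [grp, gin, gout, Equiv.piEquivPiSubtypeProd, hx]
  · have hx' : x ∉ cols h B := fun h' => hx (mem_cols.1 h')
    simp [grp, gin, gout, Equiv.piEquivPiSubtypeProd, hx]

theorem rdm_grp (B : Finset (Site L)) (Ω : (((Fin L × Fin L) × Fin h) → Fin q) → ℂ) :
    rdm B (Ω ∘ (grp L h q).symm) =
      Matrix.reindex (gin h q B) (gin h q B) (rdm (cols h B) Ω) := by
  ext a a'
  rw [reindex_apply, submatrix_apply]
  show ∑ b, Ω ((grp L h q).symm ((cut B (q ^ h)).symm (a, b))) *
      star (Ω ((grp L h q).symm ((cut B (q ^ h)).symm (a', b)))) =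
    ∑ b, Ω ((cut (cols h B) q).symm ((gin h q B).symm a, b)) *
      star (Ω ((cut (cols h B) q).symm ((gin h q B).symm a', b)))
  rw [← (gout h q B).symm.sum_comp]
  exact Finset.sum_congr rfl fun b _ => by rw [glue, glue]

theorem entropy_grp (B : Finset (Site L)) (Ω : (((Fin L × Fin L) × Fin h) → Fin q) → ℂ) :
    entropyOf B (Ω ∘ (grp L h q).symm) = entropyOf (cols h B) Ω := by
  unfold entropyOf
  rw [rdm_grp]
  exact b7_vn_reindex _ (b7_rdm_psd _ _).isHermitian

theorem acts_grp {Y : Finset (Site L)} {A : Op ((Fin L × Fin L) × Fin h) q}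
    (hA : ActsOn (cols h Y) A) :
    ActsOn Y (A.submatrix (grp L h q).symm (grp L h q).symm : Op (Site L) (q ^ h)) := by
  obtain ⟨k, hk⟩ := hA
  refine ⟨k.submatrix (gin h q Y).symm (gin h q Y).symm, fun s t => ⟨fun hst => ?_,
    fun hst => ?_⟩⟩
  · rw [submatrix_apply, submatrix_apply]
    refine (hk _ _).1 fun x hx => ?_
    have hx' : x.1 ∉ Y := fun h' => hx (mem_cols.2 h')
    show finFunctionFinEquiv.symm (s x.1) x.2 = finFunctionFinEquiv.symm (t x.1) x.2
    rw [hst x.1 hx']
  · obtain ⟨c, hc, hne⟩ := hst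
    rw [submatrix_apply]
    refine (hk _ _).2 ?_
    have hne' : finFunctionFinEquiv.symm (s c) ≠ finFunctionFinEquiv.symm (t c) := fun e =>
      hne (finFunctionFinEquiv.symm.injective e)
    obtain ⟨z, hz⟩ := Function.ne_iff.1 hne'
    exact ⟨(c, z), fun h' => hc (mem_cols.1 h'), hz⟩

theorem dist_fst_le (x y : (Fin L × Fin L) × Fin h) : dist1 x.1 y.1 ≤ dist3 x y := by
  rw [← dist2_eq]
  exact Nat.le_add_right _ _

/-- the interaction strength of the grouped system -/
noncomputable def strength (h R : ℕ) (J : ℝ) : ℝ := 2 ^ (h * (2 * R + 1) ^ 2) * J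

theorem admissible_grp {R : ℕ} {J : ℝ} (hJ : 0 ≤ J) {H : Op ((Fin L × Fin L) × Fin h) q}
    (hH : IsAdmissible dist3 R J H) :
    Admissible L (q ^ h) R (strength h R J)
      (H.submatrix (grp L h q).symm (grp L h q).symm : Op (Site L) (q ^ h)) := by
  classical
  obtain ⟨k, hk, hk2, rfl⟩ := hH
  set g := (grp L h q).symm with hg
  have hJ' : 0 ≤ strength h R J := mul_nonneg (by positivity) hJ
  refine ⟨fun Y => ∑ X ∈ univ.filter (fun X : Finset ((Fin L × Fin L) × Fin h) =>
    X.image Prod.fst = Y), (k X).submatrix g g, fun Y => ⟨?_, ?_, ?_, fun hY => ?_⟩, ?_⟩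
  · -- Hermitian
    unfold IsHermitian
    rw [conjTranspose_sum]
    exact Finset.sum_congr rfl fun X _ => ((hk X).1.submatrix g)
  · -- local
    refine ph_acts_sum _ fun X hX => acts_grp (ph_acts_mono ?_ (hk X).2.1.acts)
    have hX' := (mem_filter.1 hX).2
    intro x hx
    rw [mem_cols, ← hX']
    exact mem_image_of_mem _ hx
  · -- norm
    by_cases hz : ∀ X ∈ univ.filter (fun X : Finset ((Fin L × Fin L) × Fin h) =>
        X.image Prod.fst = Y), k X = 0
    · have : ∑ X ∈ univ.filter (fun X : Finset ((Fin L × Fin L) × Fin h) =>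
          X.image Prod.fst = Y), (k X).submatrix g g = (0 : Op (Site L) (q ^ h)) := by
        refine Finset.sum_eq_zero fun X hX => ?_
        rw [hz X hX]
        rfl
      show OpNormLe (∑ X ∈ univ.filter (fun X : Finset ((Fin L × Fin L) × Fin h) =>
          X.image Prod.fst = Y), (k X).submatrix g g) _
      rw [this]
      refine ph_opNormLe ?_
      rw [norm_zero]
      exact hJ'
    · push Not at hz
      obtain ⟨X0, hX0, hne⟩ := hz
      have hX0' := (mem_filter.1 hX0).2
      obtain ⟨⟨x0, hx0⟩, hdiam⟩ := hk2 X0 hne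
      -- the number of sites in Y
      have hY : Y.card ≤ (2 * R + 1) ^ 2 := by
        refine le_trans (Finset.card_le_card ?_) (card_ball x0.1 R)
        intro c hc
        rw [← hX0'] at hc
        obtain ⟨x, hx, rfl⟩ := mem_image.1 hc
        exact mem_filter.2 ⟨mem_univ _, (dist_fst_le x x0).trans (hdiam x hx x0 hx0)⟩
      have hcard : (univ.filter (fun X : Finset ((Fin L × Fin L) × Fin h) =>
          X.image Prod.fst = Y)).card ≤ 2 ^ (h * (2 * R + 1) ^ 2) := by
        have hsub : univ.filter (fun X : Finset ((Fin L × Fin L) × Fin h) =>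
            X.image Prod.fst = Y) ⊆ (cols h Y).powerset := by
          intro X hX
          rw [mem_powerset]
          intro x hx
          rw [mem_cols, ← (mem_filter.1 hX).2]
          exact mem_image_of_mem _ hx
        refine (Finset.card_le_card hsub).trans ?_
        rw [card_powerset, card_product, card_univ, Fintype.card_fin]
        refine Nat.pow_le_pow_right (by norm_num) ?_
        rw [mul_comm]
        exact Nat.mul_le_mul_left _ hY
      refine ph_opNormLe ?_
      refine (norm_sum_le _ _).trans ?_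
      refine (Finset.sum_le_card_nsmul _ _ J fun X _ => ?_).trans ?_
      · exact ph_norm_le hJ (onl_sub' (grp L h q) (ph_opNormLe (hk X).2.2))
      · rw [nsmul_eq_mul]
        unfold strength
        refine mul_le_mul_of_nonneg_right ?_ hJ
        exact_mod_cast hcard
  · -- range
    obtain ⟨X, hX, hXne⟩ := Finset.exists_ne_zero_of_sum_ne_zero hY
    have hX' := (mem_filter.1 hX).2
    have hkX : k X ≠ 0 := by
      intro h0
      apply hXne
      rw [h0]
      rfl
    obtain ⟨h1, h2⟩ := hk2 X hkX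
    rw [← hX']
    refine ⟨h1.image _, fun c hc c' hc' => ?_⟩
    obtain ⟨x, hx, rfl⟩ := mem_image.1 hc
    obtain ⟨x', hx', rfl⟩ := mem_image.1 hc'
    exact (dist_fst_le x x').trans (h2 x hx x' hx')
  · -- the sum
    have h1 : ∀ Y : Finset (Site L), ∀ s t : Conf (Site L) (q ^ h),
        (∑ X ∈ univ.filter (fun X : Finset ((Fin L × Fin L) × Fin h) =>
          X.image Prod.fst = Y), (k X).submatrix g g) s t =
        ∑ X ∈ univ.filter (fun X : Finset ((Fin L × Fin L) × Fin h) =>
          X.image Prod.fst = Y), k X (g s) (g t) := by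
      intro Y s t
      rw [Matrix.sum_apply]
      rfl
    ext s t
    rw [submatrix_apply, Matrix.sum_apply, Matrix.sum_apply]
    simp only [h1]
    exact (Finset.sum_fiberwise (univ : Finset (Finset ((Fin L × Fin L) × Fin h)))
      (fun X => X.image Prod.fst) (fun X => k X (g s) (g t))).symm

/-! ### Boundaries -/

/-- the columns contained in `A` -/
def full (A : Finset ((Fin L × Fin L) × Fin h)) : Finset (Site L) :=
  univ.filter fun c => ∀ z, (c, z) ∈ A

theorem cols_full_subset (A : Finset ((Fin L × Fin L) × Fin h)) : cols h (full A) ⊆ A := by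
  intro x hx
  exact (mem_filter.1 (mem_cols.1 hx)).2 x.2

theorem bdry_full_le (A : Finset ((Fin L × Fin L) × Fin h)) :
    bdry (full A) ≤ cutSize dist3 A := by
  classical
  unfold bdry cutSize
  have key : ∀ p ∈ (univ : Finset (Site L × Site L)).filter
      (fun p => p.1 ∈ full A ∧ p.2 ∉ full A ∧ dist1 p.1 p.2 = 1), ∃ z : Fin h, (p.2, z) ∉ A := by
    intro p hp
    have h1 := (mem_filter.1 hp).2.2.1
    unfold full at h1
    simpa using h1
  rcases isEmpty_or_nonempty (Fin h) with hemp | hne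
  · rw [Finset.eq_empty_of_forall_notMem fun p hp => (IsEmpty.false (key p hp).choose : False)]
    exact Nat.zero_le _
  choose! z hz using key
  refine Finset.card_le_card_of_injOn (fun p => ((p.1, z p), (p.2, z p))) ?_ ?_
  · intro p hp
    have hz' := hz p hp
    have hp' := (mem_filter.1 hp).2
    refine mem_filter.2 ⟨mem_product.2 ⟨(mem_filter.1 hp'.1).2 _, mem_compl.2 hz'⟩, ?_⟩
    show dist2 p.1 p.2 + Nat.dist (z p) (z p) = 1
    rw [dist2_eq, hp'.2.2, Nat.dist_self]
  · intro p _ p' _ hpp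
    simp only [Prod.mk.injEq] at hpp
    exact Prod.ext hpp.1.1 hpp.2.1

/-- in a mixed column there is a vertical boundary edge -/
theorem exists_vertical {A : Finset ((Fin L × Fin L) × Fin h)} {c : Site L} (z w : Fin h)
    (hz : (c, z) ∈ A) (hw : (c, w) ∉ A) :
    ∃ u v : Fin h, (c, u) ∈ A ∧ (c, v) ∉ A ∧ Nat.dist u v = 1 := by
  classical
  by_contra hno
  push Not at hno
  -- all levels are in A
  have up : ∀ n : ℕ, ∀ u : Fin h, (u : ℕ) = z + n → (c, u) ∈ A := by
    intro n
    induction n with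
    | zero =>
      intro u hu
      have : u = z := Fin.ext (by omega)
      rw [this]; exact hz
    | succ n ih =>
      intro u hu
      have hlt : (z : ℕ) + n < h := by have := u.2; omega
      have h1 := ih ⟨z + n, hlt⟩ rfl
      by_contra hu'
      refine hno ⟨z + n, hlt⟩ u h1 hu' ?_
      unfold Nat.dist
      simp only
      omega
  have down : ∀ n : ℕ, ∀ u : Fin h, (u : ℕ) + n = z → (c, u) ∈ A := by
    intro n
    induction n with
    | zero =>
      intro u hu
      have : u = z := Fin.ext (by omega)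
      rw [this]; exact hz
    | succ n ih =>
      intro u hu
      have hlt : (u : ℕ) + 1 < h := by have := z.2; omega
      have h1 := ih ⟨u + 1, hlt⟩ (by simp only; omega)
      by_contra hu'
      refine hno ⟨u + 1, hlt⟩ u h1 hu' ?_
      unfold Nat.dist
      simp only
      omega
  rcases le_total (z : ℕ) (w : ℕ) with hzw | hzw
  · exact hw (up (w - z) w (by omega))
  · exact hw (down (z - w) w (by omega))

theorem card_rest_le (A : Finset ((Fin L × Fin L) × Fin h)) :
    (A \ cols h (full A)).card ≤ h * cutSize dist3 A := by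
  classical
  set M := (A \ cols h (full A)).image Prod.fst with hM
  have hmixed : ∀ c ∈ M, ∃ u v : Fin h, (c, u) ∈ A ∧ (c, v) ∉ A ∧ Nat.dist u v = 1 := by
    intro c hc
    obtain ⟨x, hx, rfl⟩ := mem_image.1 hc
    obtain ⟨hx1, hx2⟩ := mem_sdiff.1 hx
    have hx3 : x.1 ∉ full A := fun h' => hx2 (mem_cols.2 h')
    unfold full at hx3
    have : ∃ w : Fin h, (x.1, w) ∉ A := by simpa using hx3
    obtain ⟨w, hw⟩ := this
    exact exists_vertical x.2 w hx1 hw
  rcases isEmpty_or_nonempty (Fin h) with hemp | hne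
  · rw [Finset.eq_empty_of_forall_notMem fun (x : (Fin L × Fin L) × Fin h)
      (hx : x ∈ A \ cols h (full A)) => (IsEmpty.false x.2 : False)]
    exact Nat.zero_le _
  choose! u v huv using hmixed
  have hMcard : M.card ≤ cutSize dist3 A := by
    unfold cutSize
    refine Finset.card_le_card_of_injOn (fun c => ((c, u c), (c, v c))) ?_ ?_
    · intro c hc
      obtain ⟨h1, h2, h3⟩ := huv c hc
      refine mem_filter.2 ⟨mem_product.2 ⟨h1, mem_compl.2 h2⟩, ?_⟩
      show dist2 c c + Nat.dist (u c) (v c) = 1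
      rw [h3, dist2_eq, dist1_self]
    · intro c _ c' _ hcc
      simp only [Prod.mk.injEq] at hcc
      exact hcc.1.1
  have hsub : A \ cols h (full A) ⊆ cols h M := by
    intro x hx
    rw [mem_cols]
    exact mem_image_of_mem _ hx
  refine (Finset.card_le_card hsub).trans ?_
  rw [card_product, card_univ, Fintype.card_fin, mul_comm]
  exact Nat.mul_le_mul_left _ hMcard

/-- the area law for slabs from the area law for the square with local dimension `q ^ h` -/
theorem slab_of_square {R : ℕ} {J Δ C : ℝ} (hq : 1 ≤ q) (hJ : 0 ≤ J) (hC : 0 ≤ C)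
    (base : ∀ (H : Op (Site L) (q ^ h)), Admissible L (q ^ h) R (strength h R J) H →
      ∀ (E : ℝ) (Ω : Conf (Site L) (q ^ h) → ℂ), GappedGround H Δ E Ω →
      ∀ A : Finset (Site L), entropyOf A Ω ≤ C * (bdry A : ℝ))
    {H : Op ((Fin L × Fin L) × Fin h) q} (hH : IsAdmissible dist3 R J H)
    {E : ℝ} {Ω : (((Fin L × Fin L) × Fin h) → Fin q) → ℂ} (hg : IsGapped H Δ E Ω)
    (A : Finset ((Fin L × Fin L) × Fin h)) :
    entropy A Ω ≤ (C + h * Real.log q) * cutSize dist3 A := by
  classical
  have hgap := hg.gapped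
  have h1 := base _ (admissible_grp hJ hH) E _ (gapped_sub (grp L h q) hgap) (full A)
  rw [entropy_grp] at h1
  have hdisj : Disjoint (cols h (full A)) (A \ cols h (full A)) := disjoint_sdiff
  have hunion : cols h (full A) ∪ (A \ cols h (full A)) = A :=
    union_sdiff_of_subset (cols_full_subset A)
  have h2 := entropy_union _ _ hdisj Ω hgap.1
  rw [hunion] at h2
  have h3 := entropy_le_card hq (A \ cols h (full A)) Ω hgap.1
  have hlog : 0 ≤ Real.log q := Real.log_nonneg (by exact_mod_cast hq)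
  have h4 : ((A \ cols h (full A)).card : ℝ) ≤ h * (cutSize dist3 A : ℝ) := by
    exact_mod_cast card_rest_le A
  have h5 : ((bdry (full A) : ℕ) : ℝ) ≤ (cutSize dist3 A : ℝ) := by
    exact_mod_cast bdry_full_le A
  rw [entropy_eq]
  calc entropyOf A Ω ≤ C * (bdry (full A) : ℝ) + Real.log q * (A \ cols h (full A)).card :=
        h2.trans (add_le_add h1 h3)
    _ ≤ C * (cutSize dist3 A : ℝ) + Real.log q * (h * (cutSize dist3 A : ℝ)) :=
        add_le_add (mul_le_mul_of_nonneg_left h5 hC) (mul_le_mul_of_nonneg_left h4 hlog)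
    _ = (C + h * Real.log q) * cutSize dist3 A := by ring

end columns

end Vale.Agent.P356.Slab
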